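import Vale.Agent.P092.H565.Psi
import Vale.Agent.P092.H565.Phi
import Vale.Agent.P092.H242.ThCSup
import Vale.Agent.P092.H978.Grp
import Vale.Agent.P092.H978.ThProd
import Vale.Agent.P092.PA.Fac

/-!
P092 (helper720), project Q: Theorem C for the package `Pk`, when the acting group is a factor
`FacS`: assembly of the blocks of helper242, helper565, helper978.
-/

set_option linter.all false

open scoped InnerProductSpace Topology ENNReal NNReal ZeroAtInfty
open Filter ContinuousLinearMap MeasureTheory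

namespace Vale.Agent.P092.H720

open Vale.Agent.P092.H242.ThC
open Vale.Agent.P092.PA (FacS)

/-- The group hypothesis of Theorem C, pair version. -/
theorem grp_pair {H : Type} [Group H] [TopologicalSpace H] (hF : FacS H) {S T : Set H}
    (hS : ∀ s, ∀ t ∈ S, s * t * s⁻¹ ∈ S) (hT : ∀ s, ∀ t ∈ T, s * t * s⁻¹ ∈ T)
    (hcomm : ∀ s ∈ S, ∀ t ∈ T, s * t = t * s) : S ⊆ {1} ∨ T ⊆ {1} := by
  refine Vale.Agent.P092.H978.grp_pair_of_simple hF.simple (fun hab x => ?_) hS hT hcomm
  letI : CommGroup H := { (inferInstance : Group H) with mul_comm := hab }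
  exact congrArg (fun g : H →* H => g x) (hF.hom H (MonoidHom.id H))

theorem grp_single {H : Type} [Group H] [TopologicalSpace H] (hF : FacS H) {S : Set H}
    (hS : ∀ s, ∀ t ∈ S, s * t * s⁻¹ ∈ S) (hcomm : ∀ s ∈ S, ∀ t ∈ S, s * t = t * s) :
    S ⊆ {1} := (grp_pair hF hS hS hcomm).elim id id

section abs

variable {A L : Type*} [NonUnitalRing A] [StarRing A] [Module ℂ A] [SMulCommClass ℂ A A]
  [IsScalarTower ℂ A A]
  [NormedAddCommGroup L] [InnerProductSpace ℂ L] [CompleteSpace L] {j : A →ₗ[ℂ] L}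

variable {H : Type} [Group H] [TopologicalSpace H] [IsTopologicalGroup H]
  [LocallyCompactSpace H] [T2Space H] [SecondCountableTopology H]
  [MeasurableSpace H] [BorelSpace H] {Y : Type*} [Group Y] [TopologicalSpace Y]
  [IsTopologicalGroup Y] [MeasurableSpace Y] [BorelSpace Y] [SecondCountableTopology Y]
  {α : H → A → A} {U : H →* (L →L[ℂ] L)} {μ : Measure H} [μ.IsHaarMeasure]
  {r : Y → A → A} {R : Y →* (L →L[ℂ] L)} {ν : Measure Y}

/-- The action of a factor is faithful. -/
theorem faith_of (hF : FacS H) (P : Pk j α U μ r R ν) (hne : ∃ a, j a ≠ 0) :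
    ∀ h : H, (∀ a, j (α h a) = j a) → h = 1 := by
  have hker : ∀ h : H, (∀ a, j (α h a) = j a) ↔ h ∈ U.ker := by
    intro h
    rw [MonoidHom.mem_ker]
    constructor
    · intro h1
      refine ContinuousLinearMap.coeFn_injective ?_
      refine P.ha.dense.equalizer (U h).continuous (1 : L →L[ℂ] L).continuous ?_
      funext a
      simp only [Function.comp_apply, ContinuousLinearMap.one_apply, P.actH.coe, h1]
    · intro h1 a
      rw [← P.actH.coe, h1, ContinuousLinearMap.one_apply]
  intro h hh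
  rcases hF.simple U.ker (MonoidHom.normal_ker U) with h1 | h1
  · have h2 := (hker h).1 hh
    rw [h1, Subgroup.mem_bot] at h2
    exact h2
  · exfalso
    obtain ⟨a, ha⟩ := hne
    refine ha (eq_zero_of_orth P.ha P.actH P.itgH fun b x => ?_)
    have h2 : ∀ t, j (α t b * x) = j (b * x) := by
      intro t
      have h3 : ∀ a, j (α t a) = j a := (hker t).2 (by rw [h1]; exact Subgroup.mem_top t)
      obtain ⟨C, _, hC⟩ := P.ha.bddR x
      have h4 : ‖j ((α t b - b) * x)‖ ≤ 0 := by
        refine (hC _).trans (le_of_eq ?_)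
        rw [map_sub, h3, sub_self, norm_zero, mul_zero]
      have h5 := norm_le_zero_iff.1 h4
      rw [sub_mul, map_sub, sub_eq_zero] at h5
      exact h5
    have h3 := P.itgH.int b x
    simp only [h2] at h3
    have h4 : ‖j (b * x)‖ ^ 2 = 0 := by
      by_contra h5
      have h6 := (integrable_const_iff (μ := μ) (c := ‖j (b * x)‖ ^ 2)).1 h3
      rcases h6 with h6 | h6
      · exact h5 h6
      · haveI := h6
        exact absurd (hF.measure_univ μ) (measure_ne_top μ _)
    rw [sq_eq_zero_iff, norm_eq_zero] at h4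
    rw [h4, inner_zero_left]

open Vale.Agent.P092.H565 in
/-- The positivity of `Th (star a) (star a)`. -/
theorem posOp_Th [SFinite ν] (P : Pk j α U μ r R ν) (a : A) :
    PosOp j α μ (Th P.ha P.actY P.itgY (star a) (star a)) (‖j a‖ ^ 2) := by
  intro ι _ x y
  obtain ⟨h1, h2⟩ := psi_int P Finset.univ a x y
  refine ⟨_, h1, fun h => integral_nonneg fun w => by positivity,
    Eventually.of_forall fun h => psi_form P Finset.univ a x y h, ?_⟩
  have e1 : ((∫ h, ‖Gs j α x y h‖ ^ 2 ∂μ : ℝ) : ℂ) =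
      ∑ i, ∑ k, ⟪j (x i), j (x k)⟫_ℂ * ⟪j (y i), j (y k)⟫_ℂ := by
    rw [← integral_complex_ofReal]
    have e2 : ∀ h, ((‖Gs j α x y h‖ ^ 2 : ℝ) : ℂ) =
        ∑ i, ∑ k, ⟪j (x i * α h (y i)), j (x k * α h (y k))⟫_ℂ := by
      intro h
      have e3 : ((‖Gs j α x y h‖ ^ 2 : ℝ) : ℂ) = ⟪Gs j α x y h, Gs j α x y h⟫_ℂ := by
        rw [inner_self_eq_norm_sq_to_K]; push_cast; rfl
      rw [e3]
      simp only [Gs, sum_inner, inner_sum]
      exact Finset.sum_comm
    simp_rw [e2]
    have hint : ∀ i k, Integrable (fun h => ⟪j (x i * α h (y i)), j (x k * α h (y k))⟫_ℂ) μ :=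
      fun i k => integrable_inner (memLp_F P.ha P.actH P.itgH (x i) (y i))
        (memLp_F P.ha P.actH P.itgH (x k) (y k))
    rw [integral_finset_sum _ fun i _ => integrable_finset_sum _ fun k _ => hint i k]
    refine Finset.sum_congr rfl fun i _ => ?_
    rw [integral_finset_sum _ fun k _ => hint i k]
    refine Finset.sum_congr rfl fun k _ => ?_
    rw [P.itgH.eqR P.ha P.actH, mul_comm]
  refine le_of_eq ?_
  apply Complex.ofReal_injective
  rw [h2, Complex.ofReal_mul, e1]

open Vale.Agent.P092.H565 Vale.Agent.P092.H978 in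
/-- **Theorem C**, single version. -/
theorem thmC [SFinite ν] [ν.IsMulLeftInvariant] [ν.IsInvInvariant] [ν.IsOpenPosMeasure]
    (hF : FacS H) (P : Pk j α U μ r R ν) (a b : A) : j (a * b) = j (b * a) := by
  by_cases hne : ∃ a, j a ≠ 0
  · have hf := faith_of hF P hne
    have h0 := coef_van P.ha P.actH P.itgH
    refine single_comm P h0 (dense_ph P h0 hne hf) (Vale.Agent.P092.H978.thL P) ?_
      (fun S _ hS hc => grp_single hF hS hc) a b
    intro x n b c K hK
    have h1 : ∀ k, ⟪j x, Th P.ha P.actY P.itgY (b k) (c k) (j x)⟫_ℂ =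
        ⟪j (c k), Th P.ha P.actY P.itgY (star x) (star x) (j (b k))⟫_ℂ := fun k =>
      psi_eq P x (b k) (c k)
    simp_rw [h1]
    refine sup_bound P hf hne (fun y ξ => Th_R P.ha P.actY P.itgY (star x) (star x) y ξ)
      (posOp_Th P x) (fun k => j (b k)) (fun k => j (c k)) ?_
    intro t
    simpa only [P.actH.coe] using hK t
  · push Not at hne
    rw [hne, hne]

end abs

end Vale.Agent.P092.H720
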