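import Vale.Agent.P092.H720.TwA
import Vale.Agent.P092.H720.ThC
import Vale.Agent.P092.H448.Gal2

/-!
P092 (helper720), project Q, block [Q-C1]: Theorem C for the two sided algebra,
`c1Stmt : Q.C1Stmt` (mathematics: helper565; blocks: helper242, helper565, helper715, helper978).
-/

set_option linter.all false

open scoped InnerProductSpace Topology ENNReal NNReal ZeroAtInfty
open Filter ContinuousLinearMap MeasureTheory
open Vale.Agent.P092.H160
open Vale.Agent.P092.H156.Sm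
open Vale.Agent.P092.H650

namespace Vale.Agent.P092.H720

open Vale.Agent.P092.H715.Q
open Vale.Agent.P092.H242.ThC
open Vale.Agent.P092.PA (FacS)

section com

variable {Γ X Y G H K : Type} [Group Γ] [Group X] [Group Y] [Group G] [Group H]
  [Countable X] [Countable Y]
  [TopologicalSpace G] [TopologicalSpace H] [IsTopologicalGroup G] [IsTopologicalGroup H]
  [MeasurableSpace G] [BorelSpace G] [SecondCountableTopology G]
  [MeasurableSpace H] [BorelSpace H] [SecondCountableTopology H]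
  [NormedAddCommGroup K] [InnerProductSpace ℂ K] [CompleteSpace K]
  {V W : Γ →* (K →L[ℂ] K)} {f : X →* Γ} {ρ : X →* (K →L[ℂ] K)} {f' : Y →* Γ}
  {ρ' : Y →* (K →L[ℂ] K)} {ω : K} {κ : Γ →* H} {p : Γ →* G} {μ : Measure G} {ν : Measure H}
  [μ.IsMulLeftInvariant] [ν.IsMulLeftInvariant]

/-- Fields with the same vector are equal. -/
theorem eq_of_vec [μ.IsOpenPosMeasure] {ι : X →* G} {a b : G → K →L[ℂ] K} (h : RegRep ρ ω)
    (ha : Smo ι κ ρ V ω μ a) (hb : Smo ι κ ρ V ω μ b) (he : vec ha = vec hb) : a = b := by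
  have h1 : (fun x => a x ω) =ᵐ[μ] fun x => b x ω := (MemLp.toLp_eq_toLp_iff ha.l2 hb.l2).1 he
  have h2 := Continuous.ae_eq_iff_eq μ (ha.toFd.continuous_apply ω) (hb.toFd.continuous_apply ω)
    |>.1 h1
  have h3 : (fun x => a x - b x) = 0 := by
    refine field_eq_zero h (ha.toFd.sub hb.toFd) fun x => ?_
    rw [sub_apply, sub_eq_zero]
    exact congrFun h2 x
  funext x
  exact sub_eq_zero.1 (congrFun h3 x)

theorem comm_of_jj [μ.IsOpenPosMeasure] [μ.IsMulRightInvariant]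
    (D : Dbl V W f ρ f' ρ' ω) (hκ : DenseRange κ) (hp : DenseRange p)
    (h : ∀ a b : TA D hκ p μ ν, jj D hκ p μ ν (a * b) = jj D hκ p μ ν (b * a))
    {a b : G → K →L[ℂ] K} (ha : TwS V f ρ ω p κ μ ν a) (hb : TwS V f ρ ω p κ μ ν b) (x y : G) :
    a x * b y = b y * a x := by
  have hb' := hb.rt D hκ hp (x⁻¹ * y)
  have h1 : vec (((⟨a, ha⟩ : TA D hκ p μ ν) * ⟨_, hb'⟩).2.smo) =
      vec (((⟨_, hb'⟩ : TA D hκ p μ ν) * ⟨a, ha⟩).2.smo) :=
    congrArg Subtype.val (h ⟨a, ha⟩ ⟨_, hb'⟩)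
  have h2 := eq_of_vec D.fr.reg _ _ h1
  have h3 := congrFun h2 x
  change a x * b (x * (x⁻¹ * y)) = b (x * (x⁻¹ * y)) * a x at h3
  rwa [mul_inv_cancel_left] at h3

end com

/-- **[Q-C1]** -/
theorem c1Stmt : Vale.Agent.P092.Q.C1Stmt := by
  intro Γ X Y K G H _ _ _ _ _ _ _ _ _ _ _ _ _ _ _ _ _ _ _ _ _ _ _ _ _ V W f ρ f' ρ' ω p κ μ _ _
    ν _ _ D hp hκ hG hH h1 h2 hne a b ha hb x y
  haveI : μ.IsInvInvariant := Vale.Agent.P092.H448.Gal.invInv_of_right μ
  haveI : ν.IsInvInvariant := Vale.Agent.P092.H448.Gal.invInv_of_right ν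
  obtain ⟨c, U, R, hc, P⟩ := exists_pk D hκ hp μ ν h1 h2
  have hc0 : (c : ℝ≥0∞) ≠ 0 := by exact_mod_cast hc
  haveI : (c • ν).IsHaarMeasure := Measure.IsHaarMeasure.nnreal_smul ν hc
  exact comm_of_jj D hκ hp (thmC hH P) ha hb x y

end Vale.Agent.P092.H720
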