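import Vale.Agent.P092.H715.Two

/-!
P092 (helper720), project Q, block [Q-2S], second part: the averages of inner products over the two
groups, for smooth fields acting on arbitrary square integrable vector fields.
-/

set_option linter.all false

open scoped InnerProductSpace Topology ENNReal
open Filter ContinuousLinearMap MeasureTheory
open Vale.Agent.P092.H160
open Vale.Agent.P092.H156.Sm
open Vale.Agent.P092.H650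

namespace Vale.Agent.P092.H720

open Vale.Agent.P092.H715.Q

section abs

variable {T G K : Type} [MeasurableSpace T] [MeasurableSpace G]
  [NormedAddCommGroup K] [InnerProductSpace ℂ K] [CompleteSpace K]
  {τ : Measure T} {μ : Measure G} {Φ Ψ : T → G → K →L[ℂ] K} {ξ η : G → K}

theorem aesm_field (m : StronglyMeasurable fun q : T × G => Φ q.1 q.2) [SFinite τ] [SFinite μ]
    (hξ : AEStronglyMeasurable ξ μ) :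
    AEStronglyMeasurable (fun q : T × G => Φ q.1 q.2 (ξ q.2)) (τ.prod μ) := by
  have h1 : AEStronglyMeasurable (fun q : T × G => ξ q.2) (τ.prod μ) := hξ.comp_snd
  exact (ContinuousLinearMap.id ℂ (K →L[ℂ] K)).aestronglyMeasurable_comp₂
    m.aestronglyMeasurable h1

theorem lint_field (m : StronglyMeasurable fun q : T × G => Φ q.1 q.2) [SFinite τ] [SFinite μ]
    {k : ℝ≥0∞} (hk : k ≠ ⊤) (l : ∀ z ζ, ∫⁻ t, ‖Φ t z ζ‖ₑ ^ 2 ∂τ ≤ k * ‖ζ‖ₑ ^ 2)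
    (hξ : AEStronglyMeasurable ξ μ) :
    ∫⁻ q, ‖Φ q.1 q.2 (ξ q.2)‖ₑ ^ 2 ∂(τ.prod μ) ≤ k * ∫⁻ z, ‖ξ z‖ₑ ^ 2 ∂μ := by
  have h1 := aesm_field (τ := τ) m hξ
  rw [lintegral_prod_symm _ (h1.enorm.pow_const 2), ← lintegral_const_mul' _ _ hk]
  exact lintegral_mono fun z => l z (ξ z)

theorem memLp_field (m : StronglyMeasurable fun q : T × G => Φ q.1 q.2) [SFinite τ] [SFinite μ]
    {k : ℝ≥0∞} (hk : k ≠ ⊤) (l : ∀ z ζ, ∫⁻ t, ‖Φ t z ζ‖ₑ ^ 2 ∂τ ≤ k * ‖ζ‖ₑ ^ 2)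
    (hξ : MemLp ξ 2 μ) : MemLp (fun q : T × G => Φ q.1 q.2 (ξ q.2)) 2 (τ.prod μ) := by
  refine memLp_of_lintegral (aesm_field m hξ.1) ((lint_field m hk l hξ.1).trans_lt ?_)
  exact ENNReal.mul_lt_top hk.lt_top (lintegral_sq_lt_top hξ)

/-- Fubini for the averaged inner products. -/
theorem avg (mΦ : StronglyMeasurable fun q : T × G => Φ q.1 q.2)
    (mΨ : StronglyMeasurable fun q : T × G => Ψ q.1 q.2) [SFinite τ] [SFinite μ]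
    {kΦ kΨ : ℝ≥0∞} (hkΦ : kΦ ≠ ⊤) (hkΨ : kΨ ≠ ⊤)
    (lΦ : ∀ z ζ, ∫⁻ t, ‖Φ t z ζ‖ₑ ^ 2 ∂τ ≤ kΦ * ‖ζ‖ₑ ^ 2)
    (lΨ : ∀ z ζ, ∫⁻ t, ‖Ψ t z ζ‖ₑ ^ 2 ∂τ ≤ kΨ * ‖ζ‖ₑ ^ 2) {k : ℂ}
    (e : ∀ z ζ η, ∫ t, ⟪Φ t z ζ, Ψ t z η⟫_ℂ ∂τ = k * ⟪ζ, η⟫_ℂ)
    (hξ : MemLp ξ 2 μ) (hη : MemLp η 2 μ) :
    Integrable (fun t => ∫ z, ⟪Φ t z (ξ z), Ψ t z (η z)⟫_ℂ ∂μ) τ ∧
    ∫ t, ∫ z, ⟪Φ t z (ξ z), Ψ t z (η z)⟫_ℂ ∂μ ∂τ = k * ∫ z, ⟪ξ z, η z⟫_ℂ ∂μ := by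
  have h1 := memLp_field (τ := τ) mΦ hkΦ lΦ hξ
  have h2 := memLp_field (τ := τ) mΨ hkΨ lΨ hη
  have h3 := integrable_inner_of_memLp h1 h2
  refine ⟨h3.integral_prod_left, ?_⟩
  have h4 := integral_integral_swap (f := fun t z => ⟪Φ t z (ξ z), Ψ t z (η z)⟫_ℂ) h3
  rw [h4]
  simp_rw [e]
  rw [integral_const_mul]

/-- The sum of squares over the fibres is finite for almost every parameter. -/
theorem ae_memLp (m : StronglyMeasurable fun q : T × G => Φ q.1 q.2) [SFinite τ] [SFinite μ]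
    {k : ℝ≥0∞} (hk : k ≠ ⊤) (l : ∀ z ζ, ∫⁻ t, ‖Φ t z ζ‖ₑ ^ 2 ∂τ ≤ k * ‖ζ‖ₑ ^ 2)
    (hξ : MemLp ξ 2 μ) : ∫⁻ t, ∫⁻ z, ‖Φ t z (ξ z)‖ₑ ^ 2 ∂μ ∂τ ≤ k * ∫⁻ z, ‖ξ z‖ₑ ^ 2 ∂μ := by
  have h1 := aesm_field (τ := τ) m hξ.1
  have h2 := lint_field (τ := τ) m hk l hξ.1
  rwa [lintegral_prod _ (h1.enorm.pow_const 2)] at h2

end abs

section act

variable {Γ X Y G H K : Type} [Group Γ] [Group X] [Group Y] [Group G] [Group H]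
  [Countable X] [Countable Y]
  [TopologicalSpace G] [TopologicalSpace H] [IsTopologicalGroup G] [IsTopologicalGroup H]
  [MeasurableSpace G] [BorelSpace G] [SecondCountableTopology G]
  [MeasurableSpace H] [BorelSpace H] [SecondCountableTopology H]
  [NormedAddCommGroup K] [InnerProductSpace ℂ K] [CompleteSpace K]
  {V W : Γ →* (K →L[ℂ] K)} {f : X →* Γ} {ρ : X →* (K →L[ℂ] K)} {f' : Y →* Γ}
  {ρ' : Y →* (K →L[ℂ] K)} {ω : K} {ι : X →* G}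
  {p : Γ →* G} {κ : Γ →* H} {a b x y : G → K →L[ℂ] K} {μ : Measure G} {ν : Measure H}
  {ξ η : G → K}

theorem sm_al (hF : Frm ρ V ω) (hκ : DenseRange κ) (ha : Smo ι κ ρ V ω μ a) :
    StronglyMeasurable fun q : H × G => al κ V q.1 a q.2 := by
  haveI : SecondCountableTopology (H × G) := inferInstance
  exact (continuous_al_uncurry hF hκ ha.toFd ha.acont).stronglyMeasurable

theorem sm_rt (ha : Fd ι ρ a) : StronglyMeasurable fun q : G × G => a (q.2 * q.1) :=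
  (ha.continuous.comp (continuous_snd.mul continuous_fst)).stronglyMeasurable

/-- (I alpha), for arbitrary vector fields. -/
theorem avg_al [μ.IsMulLeftInvariant] [ν.IsMulLeftInvariant] [μ.IsMulRightInvariant]
    [SFinite μ] [SFinite ν] (D : Dbl V W f ρ f' ρ' ω) (hκ : DenseRange κ)
    (hp : DenseRange p) (h2 : F1 (κ.comp f') p ρ' W ω ν) (ha : TwS V f ρ ω p κ μ ν a)
    (hb : TwS V f ρ ω p κ μ ν b) (hξ : MemLp ξ 2 μ) (hη : MemLp η 2 μ) :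
    Integrable (fun h => ∫ z, ⟪al κ V h a z (ξ z), al κ V h b z (η z)⟫_ℂ ∂μ) ν ∧
    ∫ h, ∫ z, ⟪al κ V h a z (ξ z), al κ V h b z (η z)⟫_ℂ ∂μ ∂ν =
      ip ω ν (fl κ V a) (fl κ V b) * ∫ z, ⟪ξ z, η z⟫_ℂ ∂μ := by
  refine avg (Φ := fun h z => al κ V h a z) (Ψ := fun h z => al κ V h b z)
    (sm_al D.fr hκ ha.smo) (sm_al D.fr hκ hb.smo)
    (nsq_lt_top (μ := ν) (ha.smo' D hκ).l2).ne (nsq_lt_top (μ := ν) (hb.smo' D hκ).l2).ne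
    (fun z ζ => (lint_orb D hκ hp h2 ha z ζ).le) (fun z ζ => (lint_orb D hκ hp h2 hb z ζ).le)
    (fun z ζ η => (orb_pt D hκ hp h2 ha hb z ζ η).2) hξ hη

theorem lint_al [μ.IsMulLeftInvariant] [ν.IsMulLeftInvariant] [μ.IsMulRightInvariant]
    [SFinite μ] [SFinite ν] (D : Dbl V W f ρ f' ρ' ω) (hκ : DenseRange κ)
    (hp : DenseRange p) (h2 : F1 (κ.comp f') p ρ' W ω ν) (ha : TwS V f ρ ω p κ μ ν a)
    (hξ : MemLp ξ 2 μ) :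
    ∫⁻ h, ∫⁻ z, ‖al κ V h a z (ξ z)‖ₑ ^ 2 ∂μ ∂ν = nsq ω ν (fl κ V a) * ∫⁻ z, ‖ξ z‖ₑ ^ 2 ∂μ := by
  have h1 := aesm_field (τ := ν) (Φ := fun h z => al κ V h a z) (sm_al D.fr hκ ha.smo) hξ.1
  rw [lintegral_lintegral_swap (h1.enorm.pow_const 2),
    ← lintegral_const_mul' _ _ (nsq_lt_top (μ := ν) (ha.smo' D hκ).l2).ne]
  exact lintegral_congr fun z => lint_orb D hκ hp h2 ha z (ξ z)

theorem lint_rt_pt [μ.IsMulLeftInvariant] (h1 : F1 ι κ ρ V ω μ) (ha : Smo ι κ ρ V ω μ a) (z : G)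
    (ζ : K) : ∫⁻ s, ‖a (z * s) ζ‖ₑ ^ 2 ∂μ = nsq ω μ a * ‖ζ‖ₑ ^ 2 := by
  rw [lintegral_mul_left_eq_self (μ := μ) (fun s => ‖a s ζ‖ₑ ^ 2) z]
  exact h1.lint ha ζ

theorem int_rt_pt [μ.IsMulLeftInvariant] (h1 : F1 ι κ ρ V ω μ) (ha : Smo ι κ ρ V ω μ a)
    (hb : Smo ι κ ρ V ω μ b) (z : G) (ζ ζ' : K) :
    ∫ s, ⟪a (z * s) ζ, b (z * s) ζ'⟫_ℂ ∂μ = ip ω μ a b * ⟪ζ, ζ'⟫_ℂ := by
  rw [integral_mul_left_eq_self (μ := μ) (fun s => ⟪a s ζ, b s ζ'⟫_ℂ) z]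
  exact (h1 a b ha hb ζ ζ').2

/-- (Ir), for arbitrary vector fields. -/
theorem avg_rt [μ.IsMulLeftInvariant] [SFinite μ] (h1 : F1 ι κ ρ V ω μ)
    (ha : Smo ι κ ρ V ω μ a) (hb : Smo ι κ ρ V ω μ b) (hξ : MemLp ξ 2 μ) (hη : MemLp η 2 μ) :
    Integrable (fun s => ∫ z, ⟪a (z * s) (ξ z), b (z * s) (η z)⟫_ℂ ∂μ) μ ∧
    ∫ s, ∫ z, ⟪a (z * s) (ξ z), b (z * s) (η z)⟫_ℂ ∂μ ∂μ =
      ip ω μ a b * ∫ z, ⟪ξ z, η z⟫_ℂ ∂μ := by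
  refine avg (Φ := fun s z => a (z * s)) (Ψ := fun s z => b (z * s))
    (sm_rt ha.toFd) (sm_rt hb.toFd) (nsq_lt_top (μ := μ) ha.l2).ne (nsq_lt_top (μ := μ) hb.l2).ne
    (fun z ζ => (lint_rt_pt h1 ha z ζ).le) (fun z ζ => (lint_rt_pt h1 hb z ζ).le)
    (fun z ζ η => int_rt_pt h1 ha hb z ζ η) hξ hη

theorem lint_rt [μ.IsMulLeftInvariant] [SFinite μ] (h1 : F1 ι κ ρ V ω μ)
    (ha : Smo ι κ ρ V ω μ a) (hξ : MemLp ξ 2 μ) :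
    ∫⁻ s, ∫⁻ z, ‖a (z * s) (ξ z)‖ₑ ^ 2 ∂μ ∂μ = nsq ω μ a * ∫⁻ z, ‖ξ z‖ₑ ^ 2 ∂μ := by
  have h3 := aesm_field (τ := μ) (Φ := fun s z => a (z * s)) (sm_rt ha.toFd) hξ.1
  rw [lintegral_lintegral_swap (h3.enorm.pow_const 2),
    ← lintegral_const_mul' _ _ (nsq_lt_top (μ := μ) ha.l2).ne]
  exact lintegral_congr fun z => lint_rt_pt h1 ha z (ξ z)

end act

end Vale.Agent.P092.H720
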