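import Vale.Agent.P092.H232.Join

/-!
P092, TEAM N, block [N-PL] (helper720; board #5998 (3), (4)).

`X₁` = points, `X₂` = subspaces of codimension two, `Y₀` = subspaces of codimension three,
`Z` = hyperplanes of the target; `J x X` : `x ∈ X`, `J₀ x z` : `x ∈ z`, `J₂ z X` : `z ⊆ X`.

* `adj` : two subspaces `P`, `X = Z + c` of codimension two containing the same `Z` of codimension
  three have commuting calculi, if `c u * b f * e a = 0` for `x ∉ P'`, `x ∉ X'`;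
* `gen` : an operator commuting with the calculi of two different `X₁, X₂ ⊂ m` commutes with the
  calculus of `m`.
-/

set_option linter.all false

namespace Vale.Agent.P092.H720.NPl

open Set Topology
open Vale.Agent.P092.H218 (loc mul_ap)
open Vale.Agent.P092.H232

variable {X₁ X₂ Y₀ Z K : Type*} [TopologicalSpace X₁] [CompactSpace X₁] [T2Space X₁]
  [TopologicalSpace X₂] [CompactSpace X₂] [T2Space X₂]
  [TopologicalSpace Y₀] [CompactSpace Y₀] [T2Space Y₀]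
  [TopologicalSpace Z] [CompactSpace Z] [T2Space Z]
  [NormedAddCommGroup K] [InnerProductSpace ℂ K] [CompleteSpace K]

/-- **[N-PL] (3).** -/
theorem adj {J : X₁ → X₂ → Prop} {J₀ : X₁ → Y₀ → Prop} {J₂ : Y₀ → X₂ → Prop}
    (hJ : IsClosed {q : X₁ × X₂ | J q.1 q.2}) (hJ₂ : IsClosed {q : Y₀ × X₂ | J₂ q.1 q.2})
    (huniq : ∀ x z, ¬ J₀ x z → ∀ X X', J x X → J₂ z X → J x X' → J₂ z X' → X = X')
    (c : C(X₁, ℂ) →⋆ₐ[ℂ] (K →L[ℂ] K)) (b e : C(X₂, ℂ) →⋆ₐ[ℂ] (K →L[ℂ] K))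
    (z : C(Y₀, ℂ) →⋆ₐ[ℂ] (K →L[ℂ] K))
    (hce : ∀ w a, Commute (c w) (e a)) (hze : ∀ v a, Commute (z v) (e a))
    (hzb : ∀ v f, Commute (z v) (b f))
    (ice : ∀ w a, Nin J w a → c w * e a = 0) (ize : ∀ v a, Nin J₂ v a → z v * e a = 0)
    (izb : ∀ v f, Nin J₂ v f → z v * b f = 0)
    (B3 : ∀ ξ, (∀ w v, Nin J₀ w v → c w (z v ξ) = 0) → ξ = 0)
    (key : ∀ w f a, Nin J w f → Nin J w a → c w * b f * e a = 0)
    (f g : C(X₂, ℂ)) : Commute (b f) (e g) := by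
  refine comm_of_key e b (fun u f a huf hua => ?_) f g
  -- `c w * z v * R = 0`
  have main : ∀ (w : C(X₁, ℂ)) (v : C(Y₀, ℂ)), Nin J₀ w v →
      c w * z v * (e u * b f * e a) = 0 := by
    intro w v hwv
    refine two_ind (A := K →L[ℂ] K) (S₁ := tsupport ⇑w) (S₂ := tsupport ⇑v)
      (fun w' v' => c w' * z v' * (e u * b f * e a))
      (fun w' w'' v' => by simp only [map_add, add_mul, mul_add])
      (fun w' v' v'' => by simp only [mul_add, add_mul, map_add])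
      (isClosed_tsupport _).isCompact (isClosed_tsupport _).isCompact
      (fun x hx y hy => ?_) w v subset_rfl subset_rfl
    have hxy : ¬ J₀ x y := hwv x hx y hy
    by_cases hu : ∀ X ∈ tsupport ⇑u, J x X → J₂ y X → False
    · obtain ⟨u₁, u₂, hv, O, V, hO, hxO, hV, hyV, h1, h2⟩ := split_inc hJ hJ₂ u hu
      refine ⟨O, V, hO, hxO, hV, hyV, fun w' v' hw' hv' => ?_⟩
      have e1 : c w' * z v' * e u₁ = 0 := by
        rw [mul_assoc, (hze v' u₁).eq, ← mul_assoc, ice _ _ (h1 _ hw'), zero_mul]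
      have e2 : c w' * z v' * e u₂ = 0 := by
        rw [mul_assoc, ize _ _ (h2 _ hv'), mul_zero]
      rw [hv, map_add, ← mul_assoc, ← mul_assoc, mul_add, e1, e2, add_zero, zero_mul, zero_mul]
    · push Not at hu
      obtain ⟨X₀, hX₀, h10, h20, -⟩ := hu
      have hf : ∀ X ∈ tsupport ⇑f, J x X → J₂ y X → False := by
        intro X hX h1 h2
        rw [huniq x y hxy X X₀ h1 h2 h10 h20] at hX
        exact disjoint_left.1 huf hX₀ hX
      have ha : ∀ X ∈ tsupport ⇑a, J x X → J₂ y X → False := by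
        intro X hX h1 h2
        rw [huniq x y hxy X X₀ h1 h2 h10 h20] at hX
        exact disjoint_left.1 hua hX₀ hX
      obtain ⟨f₁, f₂, hfe, O, V, hO, hxO, hV, hyV, h1, h2⟩ := split_inc hJ hJ₂ f hf
      obtain ⟨a₁, a₂, hae, O', V', hO', hxO', hV', hyV', h1', h2'⟩ := split_inc hJ hJ₂ a ha
      refine ⟨O ∩ O', V ∩ V', hO.inter hO', ⟨hxO, hxO'⟩, hV.inter hV', ⟨hyV, hyV'⟩,
        fun w' v' hw' hv' => ?_⟩
      have s1 : ∀ f' a', c w' * z v' * (e u * b f' * e a') =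
          e u * (c w' * (b f' * e a' * z v')) := by
        intro f' a'
        have hz : Commute (z v') (e u * b f' * e a') :=
          ((hze v' u).mul_right (hzb v' f')).mul_right (hze v' a')
        rw [mul_assoc (c w'), hz.eq, mul_assoc (e u), mul_assoc (e u), ← mul_assoc (c w'),
          (hce w' u).eq, mul_assoc]
      have t1 : c w' * (b f₁ * e a₁ * z v') = 0 := by
        rw [← mul_assoc, ← mul_assoc,
          key w' f₁ a₁ (h1 _ (hw'.trans inter_subset_left)) (h1' _ (hw'.trans inter_subset_right)),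
          zero_mul]
      have t2 : ∀ a', b f₂ * e a' * z v' = 0 := by
        intro a'
        rw [mul_assoc, ← (hze v' a').eq, ← mul_assoc, ← (hzb v' f₂).eq,
          izb _ _ (h2 _ (hv'.trans inter_subset_left)), zero_mul]
      have t3 : ∀ f', b f' * e a₂ * z v' = 0 := by
        intro f'
        rw [mul_assoc, ← (hze v' a₂).eq, ize _ _ (h2' _ (hv'.trans inter_subset_right)),
          mul_zero]
      rw [s1, hfe, hae, map_add, map_add, add_mul, mul_add, mul_add, add_mul, add_mul, add_mul,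
        t2, t2, t3, add_zero, add_zero, add_zero, t1, mul_zero]
  ext ξ
  refine B3 _ fun w v hwv => ?_
  have := congrArg (fun S : K →L[ℂ] K => S ξ) (main w v hwv)
  simpa [mul_ap] using this

/-- **[N-PL] (2) + (3).** `P`, `X = Z + c` of codimension two, `p` = calculus of the hyperplane
`P + X`, `y` = calculus of another hyperplane `m ⊃ X`; `I₁ x m` : `x ∈ m`, `I m X` : `X ⊆ m`. From
`KEY_P` : `c u * b f * y s = 0` for `x ∉ P'`, `x ∉ m'` the calculi of `P` and `X` commute. -/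
theorem adjacent {J : X₁ → X₂ → Prop} {J₀ : X₁ → Y₀ → Prop} {J₂ : Y₀ → X₂ → Prop}
    {I₁ : X₁ → Z → Prop} {I : X₂ → Z → Prop}
    (hJ : IsClosed {q : X₁ × X₂ | J q.1 q.2}) (hJ₂ : IsClosed {q : Y₀ × X₂ | J₂ q.1 q.2})
    (hI₁ : IsClosed {q : X₁ × Z | I₁ q.1 q.2}) (hI : IsClosed {q : X₂ × Z | I q.1 q.2})
    (huniq : ∀ x z, ¬ J₀ x z → ∀ X X', J x X → J₂ z X → J x X' → J₂ z X' → X = X')
    (huniq' : ∀ x X, ¬ J x X → ∀ z z', I₁ x z → I X z → I₁ x z' → I X z' → z = z')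
    (c : C(X₁, ℂ) →⋆ₐ[ℂ] (K →L[ℂ] K)) (b e : C(X₂, ℂ) →⋆ₐ[ℂ] (K →L[ℂ] K))
    (z : C(Y₀, ℂ) →⋆ₐ[ℂ] (K →L[ℂ] K)) (p y : C(Z, ℂ) →⋆ₐ[ℂ] (K →L[ℂ] K))
    (hce : ∀ w a, Commute (c w) (e a)) (hze : ∀ v a, Commute (z v) (e a))
    (hzb : ∀ v f, Commute (z v) (b f)) (hpc : ∀ u v, Commute (c u) (p v))
    (hpe : ∀ a v, Commute (e a) (p v)) (hpb : ∀ f v, Commute (b f) (p v))
    (hye : ∀ a s, Commute (e a) (y s))
    (ice : ∀ w a, Nin J w a → c w * e a = 0) (ize : ∀ v a, Nin J₂ v a → z v * e a = 0)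
    (izb : ∀ v f, Nin J₂ v f → z v * b f = 0) (icp : ∀ u v, Nin I₁ u v → c u * p v = 0)
    (iep : ∀ a v, Nin I a v → e a * p v = 0) (iey : ∀ a s, Nin I a s → e a * y s = 0)
    (agr : ∀ ξ, (∀ f, p f ξ = y f ξ) → ξ = 0)
    (B3 : ∀ ξ, (∀ w v, Nin J₀ w v → c w (z v ξ) = 0) → ξ = 0)
    (key : ∀ u f s, Nin J u f → Nin I₁ u s → c u * b f * y s = 0)
    (f g : C(X₂, ℂ)) : Commute (b f) (e g) := by
  refine adj hJ hJ₂ huniq c b e z hce hze hzb ice ize izb B3 (fun u f a huf hua => ?_) f g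
  have hD : IsOpen {x | ∃ X ∈ tsupport ⇑f, J x X}ᶜ :=
    (Vale.Agent.P092.H835.isClosed_meet' hJ (isClosed_tsupport _)).isOpen_compl
  refine join (J := J) hI₁ hI huniq' c e (b f) p y hpc hpe (hpb f) hye icp iep iey agr hD
    (fun u' s hu' hs => key u' f s ?_ hs) u a ?_ hua
  · exact fun x hx X hX hxX => hu' hx ⟨X, hX, hxX⟩
  · rintro x hx ⟨X, hX, hxX⟩
    exact huf x hx X hX hxX

/-- **[N-PL] (4).** -/
theorem gen {I : X₂ → Z → Prop} (hI : IsClosed {q : X₂ × Z | I q.1 q.2})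
    (huniq : ∀ x x', x ≠ x' → ∀ z z', I x z → I x' z → I x z' → I x' z' → z = z')
    (e₁ e₂ : C(X₂, ℂ) →⋆ₐ[ℂ] (K →L[ℂ] K)) (m : C(Z, ℂ) →⋆ₐ[ℂ] (K →L[ℂ] K)) (T : K →L[ℂ] K)
    (h₁m : ∀ a g, Commute (e₁ a) (m g)) (h₂m : ∀ a g, Commute (e₂ a) (m g))
    (i₁ : ∀ a g, Nin I a g → e₁ a * m g = 0) (i₂ : ∀ a g, Nin I a g → e₂ a * m g = 0)
    (agr : ∀ ξ, (∀ f, e₁ f ξ = e₂ f ξ) → ξ = 0)
    (hT₁ : ∀ a, Commute T (e₁ a)) (hT₂ : ∀ a, Commute T (e₂ a)) (g : C(Z, ℂ)) :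
    Commute T (m g) := by
  have h3 := Vale.Agent.P092.H218.loc_op m m T (fun g g' hg => ?_) g
  · exact h3
  change m g * (T * m g') = 0
  -- `e₁ a * e₂ a' * D = 0` for disjoint supports
  have main : ∀ a a' : C(X₂, ℂ), Disjoint (tsupport ⇑a) (tsupport ⇑a') →
      e₁ a * e₂ a' * (m g * (T * m g')) = 0 := by
    intro a a' haa
    refine two_ind (A := K →L[ℂ] K) (S₁ := tsupport ⇑a) (S₂ := tsupport ⇑a')
      (fun u v => e₁ u * e₂ v * (m g * (T * m g')))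
      (fun w' w'' v' => by simp only [map_add, add_mul, mul_add])
      (fun w' v' v'' => by simp only [mul_add, add_mul, map_add])
      (isClosed_tsupport _).isCompact (isClosed_tsupport _).isCompact
      (fun x hx y hy => ?_) a a' subset_rfl subset_rfl
    have hxy : x ≠ y := fun h => disjoint_left.1 haa hx (h ▸ hy)
    have key : ∀ (g₀ : C(Z, ℂ)), (∀ z ∈ tsupport ⇑g₀, I x z → I y z → False) →
        ∃ O V, IsOpen O ∧ x ∈ O ∧ IsOpen V ∧ y ∈ V ∧ ∀ (u v : C(X₂, ℂ)),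
          tsupport ⇑u ⊆ O → tsupport ⇑v ⊆ V → e₁ u * e₂ v * m g₀ = 0 := by
      intro g₀ h0
      obtain ⟨v₁, v₂, hv, O, V, hO, hxO, hV, hyV, h1, h2⟩ := split_inc hI hI g₀ h0
      refine ⟨O, V, hO, hxO, hV, hyV, fun u v hu hv' => ?_⟩
      rw [hv, map_add, mul_add, mul_assoc _ (e₂ v) (m v₂), i₂ _ _ (h2 _ hv'), mul_zero, add_zero,
        mul_assoc, (h₂m v v₁).eq, ← mul_assoc, i₁ _ _ (h1 _ hu), zero_mul]
    by_cases hc : ∀ z ∈ tsupport ⇑g, I x z → I y z → False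
    · obtain ⟨O, V, hO, hxO, hV, hyV, h1⟩ := key g hc
      refine ⟨O, V, hO, hxO, hV, hyV, fun u v hu hv => ?_⟩
      rw [← mul_assoc, h1 u v hu hv, zero_mul]
    · push Not at hc
      obtain ⟨z₀, hz₀, h10, h20, -⟩ := hc
      obtain ⟨O, V, hO, hxO, hV, hyV, h1⟩ := key g' (fun z hz h1 h2 => by
        rw [huniq x y hxy z z₀ h1 h2 h10 h20] at hz
        exact disjoint_left.1 hg hz₀ hz)
      refine ⟨O, V, hO, hxO, hV, hyV, fun u v hu hv => ?_⟩
      have c1 : Commute (e₁ u * e₂ v) (m g) := (h₁m u g).mul_left (h₂m v g)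
      have c2 : Commute (e₁ u * e₂ v) T := ((hT₁ u).symm).mul_left (hT₂ v).symm
      rw [← mul_assoc, ← mul_assoc, c1.eq, mul_assoc (m g), c2.eq, ← mul_assoc, mul_assoc,
        h1 u v hu hv, mul_zero]
  ext ξ
  refine agr _ fun f => ?_
  have hl := loc e₁ e₂ (1 : K →L[ℂ] K) ((m g * (T * m g')) ξ) (fun s v hsv => ?_) f
  · simpa using hl.symm
  · have := congrArg (fun S : K →L[ℂ] K => S ξ) (main s v hsv)
    simpa [mul_ap] using this

end Vale.Agent.P092.H720.NPl
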